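import Vale.Agent.N358.Eof

/-! P358: the Holevo quantity with prescribed average input. -/

set_option linter.unusedSectionVars false

namespace Vale.Agent.N358

open Matrix Vale.Agent.P358
open scoped ComplexOrder Kronecker

variable {ι κ : Type} [Fintype ι] [DecidableEq ι] [Fintype κ] [DecidableEq κ] {γ ν : ℝ}
  {Φ : Matrix ι ι ℂ →ₗ[ℂ] Matrix κ κ ℂ}

theorem rset_le (hΦ : IsChannel Φ) {ρ : Matrix ι ι ℂ} {x : ℝ} (hx : x ∈ rset Φ ρ) :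
    x ≤ entropy (Φ ρ) := by
  obtain ⟨m, w, ψ, hw, hw1, hψ, rfl, rfl⟩ := hx
  rw [map_sum]
  simp only [map_smul]
  exact entropy_concave _ w _ (fun a _ => hw a) hw1 fun a _ => hΦ.posSemidef (pr_psd _)

theorem roof_le_mixed (hΦ : IsChannel Φ) {m : ℕ} {w : Fin m → ℝ} {σ : Fin m → Matrix ι ι ℂ}
    (hw : ∀ a, 0 ≤ w a) (hw1 : ∑ a, w a = 1) (hσ : ∀ a, IsState (σ a)) :
    roof Φ (∑ a, (w a : ℂ) • σ a) ≤ ∑ a, w a * entropy (Φ (σ a)) := by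
  choose v hv using fun a => exists_family (hσ a).1
  have h1 : ∀ a i, pr (((√(w a) : ℝ) : ℂ) • v a i) = (w a : ℂ) • pr (v a i) := fun a i => by
    rw [pr_smul, Real.sq_sqrt (hw a)]
  have h2 := roof_le hΦ (fun p : Fin m × ι => ((√(w p.1) : ℝ) : ℂ) • v p.1 p.2)
    (isState_sum hw hw1 hσ).2 (by
      simp only [Fintype.sum_prod_type, h1, ← Finset.smul_sum, hv])
  rw [← le_div_iff₀ log_two_pos, Fintype.sum_prod_type, Finset.sum_div] at h2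
  refine h2.trans (Finset.sum_le_sum fun a _ => ?_)
  have h3 := rset_le hΦ (mem_rset hΦ (v a) (hσ a).2 (hv a))
  have h4 : ∀ i, St (Φ (pr (((√(w a) : ℝ) : ℂ) • v a i))) = w a * St (Φ (pr (v a i))) :=
    fun i => by rw [h1, map_smul, St_smul (hΦ.posSemidef (pr_psd _)) (hw a)]
  simp only [h4]
  rw [← Finset.mul_sum, mul_div_assoc]
  exact mul_le_mul_of_nonneg_left h3 (hw a)

theorem chiAt_eq (hΦ : IsChannel Φ) {ρ : Matrix ι ι ℂ} (hρ : IsState ρ) :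
    chiAt Φ ρ = entropy (Φ ρ) - roof Φ ρ := by
  have hmap : ∀ {m : ℕ} (w : Fin m → ℝ) (σ : Fin m → Matrix ι ι ℂ),
      ∑ a, (w a : ℂ) • Φ (σ a) = Φ (∑ a, (w a : ℂ) • σ a) := fun w σ => by
    rw [map_sum]
    simp only [map_smul]
  have h1 : ∀ x ∈ rset Φ ρ, ∃ (m : ℕ) (w : Fin m → ℝ) (σ : Fin m → Matrix ι ι ℂ),
      (∀ a, 0 ≤ w a) ∧ ∑ a, w a = 1 ∧ (∀ a, IsState (σ a)) ∧ ∑ a, (w a : ℂ) • σ a = ρ ∧
      entropy (Φ ρ) - x = entropy (∑ a, (w a : ℂ) • Φ (σ a)) - ∑ a, w a * entropy (Φ (σ a)) := by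
    rintro _ ⟨m, w, ψ, hw, hw1, hψ, h, rfl⟩
    exact ⟨m, w, fun a => pr (ψ a), hw, hw1, fun a => pr_state (hψ a), h, by rw [hmap, h]⟩
  obtain ⟨x, hx⟩ := rset_nonempty hΦ hρ
  refine IsLUB.csSup_eq ⟨?_, fun b hb => ?_⟩ ⟨_, h1 x hx⟩
  · rintro _ ⟨m, w, σ, hw, hw1, hσ, rfl, rfl⟩
    rw [hmap]
    linarith [roof_le_mixed hΦ hw hw1 hσ]
  · have h2 : entropy (Φ ρ) - b ≤ roof Φ ρ :=
      le_csInf ⟨x, hx⟩ fun y hy => by linarith [hb (h1 y hy)]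
    linarith

/-- subadditivity of the von Neumann entropy -/
theorem entropy_subadd {X : Matrix (ι × κ) (ι × κ) ℂ} (hX : IsState X) :
    entropy X ≤ entropy (fst X) + entropy (snd X) := by
  have h1 := (fst_state hX).1.1
  obtain ⟨U, hU, hU', h⟩ := exists_unitary_diag h1
  have hU2 : Uᴴᴴ * Uᴴ = 1 := by rwa [conjTranspose_conjTranspose]
  have hW := kron_iso (β := κ) hU2
  set W := Uᴴ ⊗ₖ (1 : Matrix κ κ ℂ) with hWdef
  have hY : IsState (W * X * Wᴴ) := ⟨hX.1.mul_mul_conjTranspose_same W, by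
    rw [trace_mul_comm, ← Matrix.mul_assoc, hW, Matrix.one_mul, hX.2]⟩
  have h2 := entropy_le_two hY
  have h3 : entropy (W * X * Wᴴ) = entropy X := by
    rw [entropy_eq_vN, entropy_eq_vN, vN_conj (mul_eq_one_comm.1 hW) hX.1]
  have h4 : ptr (W * X * Wᴴ) = snd X := snd_conj hU2 X
  have h5 : fst (W * X * Wᴴ) = diagonal fun i => (h1.eigenvalues i : ℂ) := by
    rw [fst_conj, conjTranspose_conjTranspose]
    conv_lhs => rw [h]
    simp only [Matrix.mul_assoc, hU, Matrix.mul_one]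
    rw [← Matrix.mul_assoc, hU, Matrix.one_mul]
  have h6 : ∀ b, ∑ k, ((W * X * Wᴴ) (b, k) (b, k)).re = h1.eigenvalues b := by
    intro b
    have h7 := congrArg Complex.re (congrFun (congrFun h5 b) b)
    rw [diagonal_apply_eq, Complex.ofReal_re] at h7
    rw [← h7, ← Complex.re_sum]
    rfl
  simp only [h6] at h2
  rwa [h3, h4, ← entropy_eq_sum_eta h1] at h2

theorem fst_out (hΦ : IsChannel Φ) (X : Matrix (Fin 2 × ι) (Fin 2 × ι) ℂ) :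
    fst (tensorMap (gadc γ ν) Φ X) = gadc γ ν (fst X) := by
  ext b b'
  have h : ∀ a a', ∑ y, Φ (blk X a a') y y = fst X a a' := fun a a' => hΦ.trace (blk X a a')
  rw [map_eq_sum_single (gadc γ ν) (fst X)]
  simp only [← h]
  simp only [fst, of_apply, tensorMap_two, Fin.sum_univ_two, Finset.sum_add_distrib,
    ← Finset.mul_sum]
  ring

theorem snd_out (X : Matrix (Fin 2 × ι) (Fin 2 × ι) ℂ) :
    snd (tensorMap (gadc γ ν) Φ X) = Φ (snd X) := by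
  have h : snd X = blk X 0 0 + blk X 1 1 := by
    ext i j
    simp [snd, blk]
  rw [h, map_add]
  exact ptr_out Φ X

theorem chiAt_sub (hγ : γ ∈ Set.Icc (0:ℝ) 1) (hν : ν ∈ Set.Icc (0:ℝ) 1) (hΦ : IsChannel Φ)
    {σ : Matrix (Fin 2 × ι) (Fin 2 × ι) ℂ} (hσ : IsState σ) :
    chiAt (tensorMap (gadc γ ν) Φ) σ ≤ chiAt (gadc γ ν) (fst σ) + chiAt Φ (snd σ) := by
  have hA := gadc_isChannel hγ hν
  have h1 := entropy_subadd ((hA.tensorMap hΦ).isState hσ)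
  rw [fst_out hΦ, snd_out] at h1
  rw [chiAt_eq (hA.tensorMap hΦ) hσ, chiAt_eq hA (fst_state hσ), chiAt_eq hΦ (snd_state hσ)]
  linarith [roof_super hγ hν hΦ hσ]

theorem chiAt_kron (hγ : γ ∈ Set.Icc (0:ℝ) 1) (hν : ν ∈ Set.Icc (0:ℝ) 1) (hΦ : IsChannel Φ)
    {ρ : Matrix (Fin 2) (Fin 2) ℂ} {τ : Matrix ι ι ℂ} (hρ : IsState ρ) (hτ : IsState τ) :
    chiAt (tensorMap (gadc γ ν) Φ) (ρ ⊗ₖ τ) = chiAt (gadc γ ν) ρ + chiAt Φ τ := by
  have hA := gadc_isChannel hγ hν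
  rw [chiAt_eq (hA.tensorMap hΦ) (kron_isState hρ hτ), chiAt_eq hA hρ, chiAt_eq hΦ hτ,
    roof_kron hγ hν hΦ hρ hτ, tensorMap_kron, entropy_kron (hA.isState hρ) (hΦ.isState hτ)]
  ring

end Vale.Agent.N358
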