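import Vale.Agent.P358.H888.Defs
import Vale.Agent.P358.DefsBin

/-! P358: convex roof of the output entropy, partial traces, entanglement of formation. -/

namespace Vale.Agent.N358

open Matrix Vale.Agent.P358

/-- The convex roof of the output entropy of `Φ` at `ρ`: the infimum of the mean output entropy
over the decompositions of `ρ` into pure states. -/
noncomputable def roof {ι κ : Type} [Fintype ι] [Fintype κ] [DecidableEq κ]
    (Φ : Matrix ι ι ℂ → Matrix κ κ ℂ) (ρ : Matrix ι ι ℂ) : ℝ :=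
  sInf {x | ∃ (m : ℕ) (w : Fin m → ℝ) (ψ : Fin m → ι → ℂ), (∀ a, 0 ≤ w a) ∧ ∑ a, w a = 1 ∧
    (∀ a, star (ψ a) ⬝ᵥ ψ a = 1) ∧ ∑ a, (w a : ℂ) • vecMulVec (ψ a) (star (ψ a)) = ρ ∧
    x = ∑ a, w a * entropy (Φ (vecMulVec (ψ a) (star (ψ a))))}

/-- The supremum of the Holevo quantities of the finite ensembles with average input `ρ`. -/
noncomputable def chiAt {ι κ : Type} [Fintype ι] [Fintype κ] [DecidableEq κ]
    (Φ : Matrix ι ι ℂ → Matrix κ κ ℂ) (ρ : Matrix ι ι ℂ) : ℝ :=
  sSup {x | ∃ (m : ℕ) (w : Fin m → ℝ) (σ : Fin m → Matrix ι ι ℂ), (∀ a, 0 ≤ w a) ∧ ∑ a, w a = 1 ∧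
    (∀ a, IsState (σ a)) ∧ ∑ a, (w a : ℂ) • σ a = ρ ∧
    x = entropy (∑ a, (w a : ℂ) • Φ (σ a)) - ∑ a, w a * entropy (Φ (σ a))}

/-- The first marginal: partial trace over the second factor. -/
noncomputable def fst {α β : Type} [Fintype β] (X : Matrix (α × β) (α × β) ℂ) : Matrix α α ℂ :=
  Matrix.of fun i k => ∑ j, X (i, j) (k, j)

/-- The second marginal: partial trace over the first factor. -/
noncomputable def snd {α β : Type} [Fintype α] (X : Matrix (α × β) (α × β) ℂ) : Matrix β β ℂ :=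
  Matrix.of fun j l => ∑ i, X (i, j) (i, l)

/-- The entanglement of formation. -/
noncomputable def eof {α β : Type} [Fintype α] [DecidableEq α] [Fintype β]
    (ω : Matrix (α × β) (α × β) ℂ) : ℝ :=
  roof fst ω

/-- A state of two pairs `(A B) (A' B')`, seen as a state of the pair `(A A') (B B')`. -/
def regroup {α β α' β' : Type} (ω : Matrix ((α × β) × (α' × β')) ((α × β) × (α' × β')) ℂ) :
    Matrix ((α × α') × (β × β')) ((α × α') × (β × β')) ℂ :=
  Matrix.of fun x y => ω ((x.1.1, x.2.1), (x.1.2, x.2.2)) ((y.1.1, y.2.1), (y.1.2, y.2.2))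

/-- `n` copies of a state of a pair `A B`, seen as a state of the pair `Aⁿ Bⁿ`. -/
noncomputable def copies {α β : Type} (n : ℕ) (ω : Matrix (α × β) (α × β) ℂ) :
    Matrix ((Fin n → α) × (Fin n → β)) ((Fin n → α) × (Fin n → β)) ℂ :=
  Matrix.of fun x y => ∏ i, ω (x.1 i, x.2 i) (y.1 i, y.2 i)

end Vale.Agent.N358
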