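import Vale.Agent.N358.Gadc

/-! P358: entanglement of formation of the states on the range of a dilation of the channel. -/

set_option linter.unusedSectionVars false

namespace Vale.Agent.N358

open Matrix Vale.Agent.P358
open scoped ComplexOrder Kronecker

variable {α β α' β' ε : Type} [Fintype α] [DecidableEq α] [Fintype β] [DecidableEq β]
  [Fintype α'] [DecidableEq α'] [Fintype β'] [DecidableEq β'] [Fintype ε] [DecidableEq ε]
  {γ ν : ℝ}

variable (α β) in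
/-- the partial trace as a linear map -/
noncomputable def fstL : Matrix (α × β) (α × β) ℂ →ₗ[ℂ] Matrix α α ℂ where
  toFun := fst
  map_add' X Y := by
    ext i j
    simp [fst, Finset.sum_add_distrib]
  map_smul' c X := by
    ext i j
    simp [fst, Finset.mul_sum]

theorem fstL_apply (X : Matrix (α × β) (α × β) ℂ) : fstL α β X = fst X := rfl

theorem eof_eq (ω : Matrix (α × β) (α × β) ℂ) : eof ω = roof (fstL α β) ω := rfl

theorem fstL_channel : IsChannel (fstL α β) := by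
  let e := (Fintype.equivFin β).symm
  let K : β → Matrix α (α × β) ℂ := fun j => of fun i x => if x = (i, j) then 1 else 0
  refine ⟨_, fun j => K (e j), ?_, fun X => ?_⟩
  · rw [Equiv.sum_comp e fun j => (K j)ᴴ * K j]
    ext x y
    simp only [Matrix.sum_apply, mul_apply, conjTranspose_apply, K, of_apply]
    rw [Finset.sum_comm, ← Fintype.sum_prod_type']
    simp [one_apply, apply_ite star]
  · rw [Equiv.sum_comp e fun j => K j * X * (K j)ᴴ]
    ext i k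
    simp [Matrix.sum_apply, mul_apply, K, fstL_apply, fst, apply_ite star]

theorem conj_apply (U : Matrix α α' ℂ) (V : Matrix ε α' ℂ) (X : Matrix (α' × β) (α' × β) ℂ)
    (i : α) (k : ε) (j l : β) :
    (U ⊗ₖ (1 : Matrix β β ℂ) * X * (V ⊗ₖ (1 : Matrix β β ℂ))ᴴ) (i, j) (k, l) =
      ∑ b, ∑ a, U i a * X (a, j) (b, l) * star (V k b) := by
  simp [mul_apply, Fintype.sum_prod_type, kroneckerMap_apply, one_apply, Finset.sum_mul,
    apply_ite star]

theorem fst_conj (U : Matrix α α' ℂ) (X : Matrix (α' × β) (α' × β) ℂ) :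
    fst (U ⊗ₖ (1 : Matrix β β ℂ) * X * (U ⊗ₖ (1 : Matrix β β ℂ))ᴴ) = U * fst X * Uᴴ := by
  ext i k
  simp only [fst, of_apply, conj_apply]
  simp only [of_apply, mul_apply, conjTranspose_apply, Finset.sum_mul, Finset.mul_sum]
  rw [Finset.sum_comm]
  refine Finset.sum_congr rfl fun b _ => ?_
  rw [Finset.sum_comm]

theorem snd_conj {U : Matrix α α' ℂ} (hU : Uᴴ * U = 1) (X : Matrix (α' × β) (α' × β) ℂ) :
    snd (U ⊗ₖ (1 : Matrix β β ℂ) * X * (U ⊗ₖ (1 : Matrix β β ℂ))ᴴ) = snd X := by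
  ext j l
  have h : ∀ a b, ∑ i, U i a * X (a, j) (b, l) * star (U i b) =
      (1 : Matrix α' α' ℂ) b a * X (a, j) (b, l) := by
    intro a b
    rw [← hU, mul_apply, Finset.sum_mul]
    exact Finset.sum_congr rfl fun i _ => by rw [conjTranspose_apply]; ring
  simp only [snd, of_apply, conj_apply]
  rw [Finset.sum_comm]
  refine Finset.sum_congr rfl fun b _ => ?_
  rw [Finset.sum_comm]
  simp only [h]
  simp [one_apply]

theorem trace_fst (X : Matrix (α × β) (α × β) ℂ) : (fst X).trace = X.trace :=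
  fstL_channel.trace X

theorem kron_iso {U : Matrix α α' ℂ} (hU : Uᴴ * U = 1) :
    (U ⊗ₖ (1 : Matrix β β ℂ))ᴴ * U ⊗ₖ (1 : Matrix β β ℂ) = 1 := by
  rw [conjTranspose_kronecker, ← mul_kronecker_mul, hU, conjTranspose_one, Matrix.one_mul,
    one_kronecker_one]

/-- a state whose first marginal lives on the range of an isometry -/
theorem exists_pullback {U : Matrix α α' ℂ} (hU : Uᴴ * U = 1) {ω : Matrix (α × β) (α × β) ℂ}
    (hω : IsState ω) {ρ : Matrix α' α' ℂ} (h : fst ω = U * ρ * Uᴴ) :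
    ∃ σ, IsState σ ∧ ω = U ⊗ₖ (1 : Matrix β β ℂ) * σ * (U ⊗ₖ (1 : Matrix β β ℂ))ᴴ := by
  set W := U ⊗ₖ (1 : Matrix β β ℂ) with hW
  have hQ : (1 - U * Uᴴ) * U = 0 := by
    rw [Matrix.sub_mul, Matrix.mul_assoc, hU, Matrix.one_mul, Matrix.mul_one, sub_self]
  have hQW : (1 - U * Uᴴ) ⊗ₖ (1 : Matrix β β ℂ) = 1 - W * Wᴴ := by
    rw [hW, conjTranspose_kronecker, ← mul_kronecker_mul, conjTranspose_one, Matrix.one_mul,
      ← one_kronecker_one (m := α) (n := β)]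
    ext x y
    simp only [kroneckerMap_apply, Matrix.sub_apply, sub_mul]
  have h1 := congrArg trace (fst_conj (1 - U * Uᴴ) ω)
  rw [trace_fst, h, ← Matrix.mul_assoc, ← Matrix.mul_assoc, hQ, hQW] at h1
  obtain ⟨B, hB⟩ := exists_sqrt hω.1
  have h2 : (1 - W * Wᴴ) * Bᴴ = 0 := by
    rw [← trace_mul_conjTranspose_self_eq_zero_iff, conjTranspose_mul, conjTranspose_conjTranspose,
      ← Matrix.mul_assoc, Matrix.mul_assoc _ Bᴴ, ← hB, h1]
    simp
  have h3 : W * Wᴴ * ω = ω := by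
    rw [Matrix.sub_mul, Matrix.one_mul, sub_eq_zero] at h2
    rw [hB, ← Matrix.mul_assoc, ← h2]
  have h4 : ω * (W * Wᴴ) = ω := by
    have := congrArg conjTranspose h3
    rwa [conjTranspose_mul, conjTranspose_mul, conjTranspose_conjTranspose, hω.1.1.eq] at this
  refine ⟨Wᴴ * ω * W, ⟨hω.1.conjTranspose_mul_mul_same W, ?_⟩, ?_⟩
  · rw [trace_mul_comm, ← Matrix.mul_assoc, h3, hω.2]
  · rw [← Matrix.mul_assoc, ← Matrix.mul_assoc, h3, Matrix.mul_assoc, h4]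

theorem roof_submatrix {ι ι' κ κ' : Type} [Fintype ι] [Fintype ι'] [DecidableEq ι] [DecidableEq ι']
    [Fintype κ] [Fintype κ'] [DecidableEq κ] [DecidableEq κ'] {F : Matrix ι ι ℂ → Matrix κ κ ℂ}
    {F' : Matrix ι' ι' ℂ → Matrix κ' κ' ℂ} (e : ι' ≃ ι)
    (h : ∀ X, entropy (F' (X.submatrix e e)) = entropy (F X)) (ρ : Matrix ι ι ℂ) :
    roof F' (ρ.submatrix e e) = roof F ρ := by
  have key : ∀ {ι ι' κ κ' : Type} [Fintype ι] [Fintype ι'] [DecidableEq ι] [DecidableEq ι']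
      [Fintype κ] [Fintype κ'] [DecidableEq κ] [DecidableEq κ'] {F : Matrix ι ι ℂ → Matrix κ κ ℂ}
      {F' : Matrix ι' ι' ℂ → Matrix κ' κ' ℂ} (e : ι' ≃ ι)
      (_ : ∀ X, entropy (F' (X.submatrix e e)) = entropy (F X)) (ρ : Matrix ι ι ℂ),
      rset F ρ ⊆ rset F' (ρ.submatrix e e) := by
    rintro ι ι' κ κ' _ _ _ _ _ _ _ _ F F' e h ρ _ ⟨m, w, ψ, hw, hw1, hψ, rfl, rfl⟩
    refine ⟨m, w, fun a => ψ a ∘ e, hw, hw1, fun a => ?_, ?_, ?_⟩
    · rw [← hψ a]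
      exact Equiv.sum_comp e fun i => star (ψ a) i * ψ a i
    · ext i j
      simp [Matrix.sum_apply, pr, vecMulVec_apply]
    · exact Finset.sum_congr rfl fun a _ => by rw [← h]; rfl
  rw [roof_eq, roof_eq]
  congr 1
  refine subset_antisymm ?_ (key e h ρ)
  have h1 := key (F := F') (F' := F) e.symm (fun X => by rw [← h]; simp) (ρ.submatrix e e)
  simpa using h1

theorem eof_submatrix (a : α' ≃ α) (b : β' ≃ β) (ω : Matrix (α × β) (α × β) ℂ) :
    eof (ω.submatrix (a.prodCongr b) (a.prodCongr b)) = eof ω := by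
  refine roof_submatrix (a.prodCongr b) (fun X => ?_) ω
  rw [← entropy_submatrix a (fst X)]
  congr 1
  ext i k
  exact Equiv.sum_comp b fun j => X (a i, j) (a k, j)

theorem regroup_eq (ω : Matrix ((α × β) × (α' × β')) ((α × β) × (α' × β')) ℂ) :
    regroup ω = ω.submatrix (Equiv.prodProdProdComm α α' β β') (Equiv.prodProdProdComm α α' β β') :=
  rfl

section

variable {V : Matrix (Fin 2 × ε) (Fin 2) ℂ} (hV : ∀ X, fst (V * X * Vᴴ) = gadc γ ν X)
include hV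

theorem dil_iso : Vᴴ * V = 1 := by
  refine ext_iff_trace_mul_right.2 fun X => ?_
  rw [Matrix.one_mul, ← trace_gadc γ ν X, ← hV, trace_fst, trace_mul_comm (V * X),
    Matrix.mul_assoc]

theorem dil_state {ρ : Matrix (Fin 2) (Fin 2) ℂ} (hρ : IsState ρ) : IsState (V * ρ * Vᴴ) :=
  ⟨hρ.1.mul_mul_conjTranspose_same V, by rw [← trace_fst, hV, trace_gadc, hρ.2]⟩

theorem eof_dil (hγ : γ ∈ Set.Icc (0:ℝ) 1) (hν : ν ∈ Set.Icc (0:ℝ) 1)
    {ρ : Matrix (Fin 2) (Fin 2) ℂ} (hρ : IsState ρ) : eof (V * ρ * Vᴴ) = roof (gadc γ ν) ρ :=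
  roof_isometry (gadc_isChannel hγ hν) fstL_channel (dil_iso hV) hV hρ

theorem eof_regroup (hγ : γ ∈ Set.Icc (0:ℝ) 1) (hν : ν ∈ Set.Icc (0:ℝ) 1)
    {σ : Matrix (Fin 2 × (α × β)) (Fin 2 × (α × β)) ℂ} (hσ : IsState σ) :
    eof (regroup (V ⊗ₖ (1 : Matrix (α × β) (α × β) ℂ) * σ *
      (V ⊗ₖ (1 : Matrix (α × β) (α × β) ℂ))ᴴ)) = roof (tensorMap (gadc γ ν) (fstL α β)) σ := by
  let e := Equiv.prodProdProdComm (Fin 2) α ε β
  let W := (V ⊗ₖ (1 : Matrix (α × β) (α × β) ℂ)).submatrix e id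
  have hW : ∀ X, W * X * Wᴴ = regroup (V ⊗ₖ (1 : Matrix (α × β) (α × β) ℂ) * X *
      (V ⊗ₖ (1 : Matrix (α × β) (α × β) ℂ))ᴴ) := fun X => rfl
  rw [← hW]
  refine roof_isometry ((gadc_isChannel hγ hν).tensorMap fstL_channel) fstL_channel ?_
    (fun X => ?_) hσ
  · rw [← kron_iso (β := α × β) (dil_iso hV)]
    ext x y
    exact Equiv.sum_comp e fun z => star ((V ⊗ₖ (1 : Matrix (α × β) (α × β) ℂ)) z x) *
      (V ⊗ₖ (1 : Matrix (α × β) (α × β) ℂ)) z y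
  · ext ⟨b, y⟩ ⟨b', y'⟩
    have h1 : ∀ a a', gadc γ ν (single a a' 1) b b' = ∑ k, V (b, k) a * star (V (b', k) a') := by
      intro a a'
      rw [← hV]
      simp [fst, mul_apply, single_apply, ite_and]
    rw [hW, tensorMap_two]
    simp only [fstL_apply, fst, regroup, of_apply, conj_apply, h1, blk, submatrix_apply,
      Fintype.sum_prod_type, Fin.sum_univ_two, Finset.sum_add_distrib, Finset.sum_mul_sum]
    have h2 : ∀ a a', ∑ k, ∑ j, V (b, k) a * X (a, y, j) (a', y', j) * star (V (b', k) a') =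
        ∑ k, ∑ j, V (b, k) a * star (V (b', k) a') * X (a, y, j) (a', y', j) := fun a a' =>
      Finset.sum_congr rfl fun k _ => Finset.sum_congr rfl fun j _ => by ring
    simp only [h2]
    ring

theorem eof_super (hγ : γ ∈ Set.Icc (0:ℝ) 1) (hν : ν ∈ Set.Icc (0:ℝ) 1)
    {ω : Matrix ((Fin 2 × ε) × (α × β)) ((Fin 2 × ε) × (α × β)) ℂ} (hω : IsState ω)
    {ρ : Matrix (Fin 2) (Fin 2) ℂ} (h : fst ω = V * ρ * Vᴴ) :
    eof (fst ω) + eof (snd ω) ≤ eof (regroup ω) := by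
  obtain ⟨σ, hσ, rfl⟩ := exists_pullback (dil_iso hV) hω h
  rw [eof_regroup hV hγ hν hσ, fst_conj, snd_conj (dil_iso hV), eof_dil hV hγ hν (fst_state hσ)]
  exact roof_super hγ hν fstL_channel hσ

theorem eof_kron (hγ : γ ∈ Set.Icc (0:ℝ) 1) (hν : ν ∈ Set.Icc (0:ℝ) 1)
    {ρ : Matrix (Fin 2) (Fin 2) ℂ} (hρ : IsState ρ) {τ : Matrix (α × β) (α × β) ℂ}
    (hτ : IsState τ) : eof (regroup ((V * ρ * Vᴴ) ⊗ₖ τ)) = eof (V * ρ * Vᴴ) + eof τ := by
  have h : (V * ρ * Vᴴ) ⊗ₖ τ = V ⊗ₖ (1 : Matrix (α × β) (α × β) ℂ) * ρ ⊗ₖ τ *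
      (V ⊗ₖ (1 : Matrix (α × β) (α × β) ℂ))ᴴ := by
    rw [conjTranspose_kronecker, ← mul_kronecker_mul, ← mul_kronecker_mul, conjTranspose_one,
      Matrix.one_mul, Matrix.mul_one]
  rw [h, eof_regroup hV hγ hν (kron_isState hρ hτ), eof_dil hV hγ hν hρ]
  exact roof_kron hγ hν fstL_channel hρ hτ

theorem eof_copies (hγ : γ ∈ Set.Icc (0:ℝ) 1) (hν : ν ∈ Set.Icc (0:ℝ) 1)
    {ρ : Matrix (Fin 2) (Fin 2) ℂ} (hρ : IsState ρ) (n : ℕ) :
    IsState (copies n (V * ρ * Vᴴ)) ∧ eof (copies n (V * ρ * Vᴴ)) = n * eof (V * ρ * Vᴴ) := by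
  induction n with
  | zero =>
    have h1 : copies 0 (V * ρ * Vᴴ) = 1 := by
      ext x y
      rw [Subsingleton.elim x y]
      simp [copies]
    have h2 : IsState (copies 0 (V * ρ * Vᴴ)) := by
      rw [h1]
      exact ⟨PosSemidef.one, by simp⟩
    refine ⟨h2, ?_⟩
    rw [Nat.cast_zero, zero_mul, eof_eq, roof_eq]
    obtain ⟨x, hx⟩ := rset_nonempty fstL_channel h2
    have h3 : ∀ x ∈ rset (fstL (Fin 0 → Fin 2) (Fin 0 → ε)) (copies 0 (V * ρ * Vᴴ)), x = 0 := by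
      rintro _ ⟨m, w, ψ, -, -, hψ, -, rfl⟩
      refine Finset.sum_eq_zero fun a _ => ?_
      have h4 := fstL_channel.isState (pr_state (hψ a))
      have h5 := entropy_le_logb_card h4
      rw [le_antisymm (by simpa using h5) (entropy_nonneg h4), mul_zero]
    rw [Set.eq_singleton_iff_unique_mem.2 ⟨h3 x hx ▸ hx, h3⟩, csInf_singleton]
  | succ n ih =>
    have h1 : copies (n + 1) (V * ρ * Vᴴ) =
        (regroup ((V * ρ * Vᴴ) ⊗ₖ copies n (V * ρ * Vᴴ))).submatrix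
          ((Fin.consEquiv fun _ => Fin 2).symm.prodCongr (Fin.consEquiv fun _ => ε).symm)
          ((Fin.consEquiv fun _ => Fin 2).symm.prodCongr (Fin.consEquiv fun _ => ε).symm) := by
      ext x y
      exact Fin.prod_univ_succ _
    refine ⟨?_, ?_⟩
    · rw [h1, regroup_eq]
      exact isState_submatrix _ (isState_submatrix _ (kron_isState (dil_state hV hρ) ih.1))
    · rw [h1, eof_submatrix, eof_kron hV hγ hν hρ ih.1, ih.2]
      push_cast
      ring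

end

theorem dil_of_kraus {A : ε → Matrix (Fin 2) (Fin 2) ℂ}
    (hA : ∀ X, gadc γ ν X = ∑ j, A j * X * (A j)ᴴ) :
    ∃ V : Matrix (Fin 2 × ε) (Fin 2) ℂ, ∀ X, fst (V * X * Vᴴ) = gadc γ ν X :=
  ⟨of fun y x => A y.2 y.1 x, fun X => by
    rw [hA]
    ext i k
    simp only [fst, of_apply, Matrix.sum_apply, mul_apply, conjTranspose_apply]⟩

theorem dil_two (hγ : γ ∈ Set.Icc (0:ℝ) 1) {V : Matrix (Fin 2 × Fin 2) (Fin 2) ℂ}
    (h0 : Vᵀ 0 = Pi.single (0, 0) 1)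
    (h1 : Vᵀ 1 = Pi.single (1, 0) (√(1 - γ) : ℂ) + Pi.single (0, 1) (√γ : ℂ))
    (X : Matrix (Fin 2) (Fin 2) ℂ) : fst (V * X * Vᴴ) = gadc γ 0 X := by
  have e1 : ((√γ : ℝ) : ℂ) * (√γ : ℝ) = γ := by
    rw [← Complex.ofReal_mul, Real.mul_self_sqrt hγ.1]
  have e2 : ((√(1 - γ) : ℝ) : ℂ) * (√(1 - γ) : ℝ) = 1 - γ := by
    rw [← Complex.ofReal_mul, Real.mul_self_sqrt (sub_nonneg.2 hγ.2)]
    simp
  have g0 : ∀ y, V y 0 = (Pi.single (0, 0) 1 : Fin 2 × Fin 2 → ℂ) y := congrFun h0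
  have g1 : ∀ y, V y 1 = (Pi.single (1, 0) (√(1 - γ) : ℂ) + Pi.single (0, 1) (√γ : ℂ) :
    Fin 2 × Fin 2 → ℂ) y := congrFun h1
  rw [gadc_apply]
  ext i k
  fin_cases i <;> fin_cases k <;> simp [fst, mul_apply, Fin.sum_univ_two, g0, g1]
  · linear_combination X 1 1 * e1
  · ring
  · linear_combination X 1 1 * e2

end Vale.Agent.N358
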