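import Vale.Agent.N358.Roof

/-! P358: the convex roof for the generalized amplitude-damping channel. -/

set_option linter.unusedSectionVars false

namespace Vale.Agent.N358

open Matrix Vale.Agent.P358
open scoped ComplexOrder Kronecker

variable {ι κ : Type} [Fintype ι] [DecidableEq ι] [Fintype κ] [DecidableEq κ] {γ ν : ℝ}

theorem St_gadc (hγ : γ ∈ Set.Icc (0:ℝ) 1) (hν : ν ∈ Set.Icc (0:ℝ) 1) (v : Fin 2 → ℂ) :
    St (gadc γ ν (pr v)) = eta2 (Complex.normSq (v 0) + Complex.normSq (v 1))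
      (outDet γ ν (Complex.normSq (v 0)) (Complex.normSq (v 1))) -
      Real.negMulLog (Complex.normSq (v 0) + Complex.normSq (v 1)) := by
  have ht : (gadc γ ν (pr v)).trace.re = Complex.normSq (v 0) + Complex.normSq (v 1) := by
    rw [trace_gadc, trace_fin_two]
    simp [pr, vecMulVec_apply, Complex.mul_conj]
  have hs : Real.sqrt (1 - γ) ^ 2 = 1 - γ := Real.sq_sqrt (by linarith [hγ.2])
  have hd : (gadc γ ν (pr v)).det.re =
      outDet γ ν (Complex.normSq (v 0)) (Complex.normSq (v 1)) := by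
    rw [det_fin_two, gadc_apply]
    simp only [of_apply, cons_val_zero, cons_val_one, cons_val', cons_val_fin_one, pr,
      vecMulVec_apply, Pi.star_apply, outDet]
    simp [Complex.normSq_apply]
    linear_combination (-(((v 0).re ^ 2 + (v 0).im ^ 2) * ((v 1).re ^ 2 + (v 1).im ^ 2))) * hs
  rw [St, vN_two (gadc_posSemidef hγ hν (pr_psd v)), ht, hd]

theorem exists_two {ρ : Matrix (Fin 2) (Fin 2) ℂ} (hρ : IsState ρ) :
    ∃ v : Fin 2 → Fin 2 → ℂ, ∑ b, pr (v b) = ρ ∧ ∀ b,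
      Complex.normSq (v b 0) = 1 / 2 * (1 - (ρ 1 1).re) ∧
      Complex.normSq (v b 1) = 1 / 2 * (ρ 1 1).re := by
  obtain ⟨i0, i1, r0, h0, h1, h10, hd⟩ := state_facts hρ
  set q := (ρ 1 1).re with hq
  obtain ⟨u, hu, hz⟩ := Complex.exists_norm_mul_eq_self (ρ 0 1)
  set a := √(1 / 2 * (1 - q)) with ha
  set b := √(1 / 2 * q) with hb
  have ha2 : a ^ 2 = 1 / 2 * (1 - q) := Real.sq_sqrt (by linarith)
  have hb2 : b ^ 2 = 1 / 2 * q := Real.sq_sqrt (by linarith)
  have ha0 : 0 ≤ a := Real.sqrt_nonneg _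
  have hb0 : 0 ≤ b := Real.sqrt_nonneg _
  have hn : ‖ρ 0 1‖ ≤ 2 * (a * b) := by
    refine abs_le_of_sq_le_sq' ?_ (by positivity) |>.2
    rw [Complex.sq_norm, Complex.normSq_apply, mul_pow, mul_pow, ha2, hb2]
    nlinarith
  obtain ⟨c, hc0, hc1, hc⟩ : ∃ c : ℝ, 0 ≤ c ∧ c ≤ 1 ∧ 2 * (a * b) * c = ‖ρ 0 1‖ := by
    rcases (show 0 ≤ 2 * (a * b) by positivity).eq_or_lt with h | h
    · exact ⟨0, le_rfl, zero_le_one, by linarith [norm_nonneg (ρ 0 1)]⟩
    · exact ⟨‖ρ 0 1‖ / (2 * (a * b)), by positivity, (div_le_one h).2 hn,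
        mul_div_cancel₀ _ h.ne'⟩
  set s := √(1 - c ^ 2) with hs
  have hs2 : s ^ 2 = 1 - c ^ 2 := Real.sq_sqrt (by nlinarith)
  have hu2 : Complex.normSq u = 1 := by rw [← Complex.sq_norm, hu, one_pow]
  have hn0 : ∀ t : ℝ, t ^ 2 = 1 - c ^ 2 →
      Complex.normSq ((a : ℂ) * (u * (c + t * Complex.I))) = 1 / 2 * (1 - q) := by
    intro t ht
    rw [map_mul, map_mul, hu2, Complex.normSq_add_mul_I, Complex.normSq_ofReal, ht, ← ha2]
    ring
  have hn1 : Complex.normSq (b : ℂ) = 1 / 2 * q := by rw [Complex.normSq_ofReal, ← hb2, sq]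
  have e1 := hn0 s hs2
  have e2 := hn0 (-s) (by rw [neg_sq, hs2])
  have e01 : (a : ℂ) * (u * (c + s * Complex.I)) * b +
      (a : ℂ) * (u * (c + ((-s : ℝ) : ℂ) * Complex.I)) * b = ρ 0 1 := by
    rw [← hz, ← hc]
    push_cast
    ring
  refine ⟨![![a * (u * (c + s * Complex.I)), b], ![a * (u * (c + ((-s : ℝ) : ℂ) * Complex.I)), b]],
    ?_, fun k => ?_⟩
  · have hh : (∑ k, pr (![![a * (u * (c + s * Complex.I)), b],
        ![a * (u * (c + ((-s : ℝ) : ℂ) * Complex.I)), (b : ℂ)]] k)).IsHermitian :=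
      (posSemidef_sum _ fun k _ => pr_psd _).1
    have g01 : (∑ k, pr (![![a * (u * (c + s * Complex.I)), b],
        ![a * (u * (c + ((-s : ℝ) : ℂ) * Complex.I)), (b : ℂ)]] k)) 0 1 = ρ 0 1 := by
      rw [← e01, Fin.sum_univ_two]
      simp only [pr, Matrix.add_apply, vecMulVec_apply, Pi.star_apply, cons_val_zero, cons_val_one,
        cons_val_fin_one, RCLike.star_def, Complex.conj_ofReal]
    ext i j
    fin_cases i <;> fin_cases j
    · rw [Fin.sum_univ_two]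
      simp only [pr, Matrix.add_apply, vecMulVec_apply, Pi.star_apply, cons_val_zero, cons_val_one,
        cons_val_fin_one, RCLike.star_def, Complex.mul_conj, Fin.zero_eta, e1, e2]
      refine Complex.ext ?_ ?_
      · rw [r0, ← Complex.ofReal_add, Complex.ofReal_re]
        ring
      · rw [i0, ← Complex.ofReal_add, Complex.ofReal_im]
    · exact g01
    · show _ = ρ 1 0
      rw [h10, ← g01]
      exact (hh.apply 1 0).symm
    · rw [Fin.sum_univ_two]
      simp only [pr, Matrix.add_apply, vecMulVec_apply, Pi.star_apply, cons_val_zero, cons_val_one,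
        cons_val_fin_one, RCLike.star_def, Complex.mul_conj, Fin.mk_one, hn1]
      refine Complex.ext ?_ ?_
      · rw [← hq, ← Complex.ofReal_add, Complex.ofReal_re]
        ring
      · rw [i1, ← Complex.ofReal_add, Complex.ofReal_im]
  · fin_cases k
    · exact ⟨e1, hn1⟩
    · exact ⟨e2, hn1⟩

theorem roof_gadc_log (hγ : γ ∈ Set.Icc (0:ℝ) 1) (hν : ν ∈ Set.Icc (0:ℝ) 1)
    {ρ : Matrix (Fin 2) (Fin 2) ℂ} (hρ : IsState ρ) :
    roof (gadc γ ν) ρ * Real.log 2 = eta2 1 (outDet γ ν (1 - (ρ 1 1).re) (ρ 1 1).re) := by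
  have hA := gadc_isChannel hγ hν
  refine le_antisymm ?_ (le_roof hA hρ fun m v hv => ?_)
  · obtain ⟨v, hv, h⟩ := exists_two hρ
    refine (roof_le hA v hρ.2 hv).trans (le_of_eq ?_)
    have h1 : ∀ b, St (gadc γ ν (pr (v b))) =
        1 / 2 * eta2 1 (outDet γ ν (1 - (ρ 1 1).re) (ρ 1 1).re) := by
      intro b
      have h2 : outDet γ ν (1 / 2 * (1 - (ρ 1 1).re)) (1 / 2 * (ρ 1 1).re) =
          (1 / 2) ^ 2 * outDet γ ν (1 - (ρ 1 1).re) (ρ 1 1).re := by
        unfold outDet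
        ring
      rw [St_gadc hγ hν, (h b).1, (h b).2, h2,
        show 1 / 2 * (1 - (ρ 1 1).re) + 1 / 2 * (ρ 1 1).re = 1 / 2 * 1 by ring,
        eta2_scale (by norm_num), mul_one, one_mul, add_sub_cancel_right]
    rw [Fin.sum_univ_two, h1, h1]
    ring
  · have h1 : ∀ i, ∑ a, Complex.normSq (v a i) = (ρ i i).re := by
      intro i
      rw [← hv, Matrix.sum_apply, Complex.re_sum]
      simp [pr, vecMulVec_apply, Complex.mul_conj]
    have h2 := (state_facts hρ).2.2.1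
    have h3 := outDet_jensen hγ hν Finset.univ (fun a => Complex.normSq (v a 0))
      (fun a => Complex.normSq (v a 1)) (fun a _ => Complex.normSq_nonneg _)
      (fun a _ => Complex.normSq_nonneg _) (by
        rw [Finset.sum_add_distrib, h1, h1, h2]
        ring)
    rw [h1, h1, h2] at h3
    simpa only [St_gadc hγ hν] using h3

/-- the closed form of the roof -/
theorem roof_gadc (hγ : γ ∈ Set.Icc (0:ℝ) 1) (hν : ν ∈ Set.Icc (0:ℝ) 1)
    {ρ : Matrix (Fin 2) (Fin 2) ℂ} (hρ : IsState ρ) :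
    roof (gadc γ ν) ρ = h2 ((1 + √((1 - 2 * ((1 - γ) * (ρ 1 1).re + γ * ν)) ^ 2 +
      4 * (1 - γ) * ((ρ 1 1).re * (1 - (ρ 1 1).re)))) / 2) := by
  have e1 : (1 - 2 * ((1 - γ) * (ρ 1 1).re + γ * ν)) ^ 2 +
      4 * (1 - γ) * ((ρ 1 1).re * (1 - (ρ 1 1).re)) =
      1 - 4 * outDet γ ν (1 - (ρ 1 1).re) (ρ 1 1).re := by
    unfold outDet
    ring
  rw [e1, ← eta2_one_h2, ← roof_gadc_log hγ hν hρ, mul_div_cancel_right₀ _ log_two_pos.ne']

theorem fst_state {α β : Type} [Fintype α] [Fintype β] {X : Matrix (α × β) (α × β) ℂ}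
    (hX : IsState X) : IsState (fst X) := by
  have h : fst X = ∑ b, X.submatrix (fun k => (k, b)) (fun k => (k, b)) := by
    ext k k'
    simp [fst, Matrix.sum_apply]
  refine ⟨h ▸ posSemidef_sum _ fun b _ => hX.1.submatrix _, ?_⟩
  rw [← hX.2]
  simp only [Matrix.trace, diag_apply, fst, of_apply]
  rw [Fintype.sum_prod_type]

theorem snd_state {α β : Type} [Fintype α] [Fintype β] {X : Matrix (α × β) (α × β) ℂ}
    (hX : IsState X) : IsState (snd X) :=
  ⟨ptr_posSemidef hX.1, (ptr_trace X).trans hX.2⟩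

/-- **strong superadditivity of the convex roof** -/
theorem roof_super (hγ : γ ∈ Set.Icc (0:ℝ) 1) (hν : ν ∈ Set.Icc (0:ℝ) 1)
    {Ψ : Matrix ι ι ℂ →ₗ[ℂ] Matrix κ κ ℂ} (hΨ : IsChannel Ψ)
    {σ : Matrix (Fin 2 × ι) (Fin 2 × ι) ℂ} (hσ : IsState σ) :
    roof (gadc γ ν) (fst σ) + roof Ψ (snd σ) ≤ roof (tensorMap (gadc γ ν) Ψ) σ := by
  have hT := (gadc_isChannel hγ hν).tensorMap hΨ
  refine le_of_mul_le_mul_right ?_ log_two_pos
  rw [add_mul, roof_gadc_log hγ hν (fst_state hσ)]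
  refine le_roof hT hσ fun m v hv => ?_
  have hb : ∀ a b, blk (pr (v a)) b b = pr fun i => v a (b, i) := fun a b => rfl
  have h1 : ∀ b, ∑ a, (blk (pr (v a)) b b).trace.re = (fst σ b b).re := by
    intro b
    rw [← hv]
    simp only [fst, of_apply, Matrix.sum_apply, Complex.re_sum, Matrix.trace, diag_apply, blk,
      submatrix_apply]
    rw [Finset.sum_comm]
  have h2 := (state_facts (fst_state hσ)).2.2.1
  have h3 := outDet_jensen hγ hν Finset.univ (fun a => (blk (pr (v a)) 0 0).trace.re)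
    (fun a => (blk (pr (v a)) 1 1).trace.re) (fun a _ => trace_re_nonneg (pr_psd _))
    (fun a _ => trace_re_nonneg (pr_psd _)) (by
      rw [Finset.sum_add_distrib, h1, h1, h2]
      ring)
  rw [h1, h1, h2] at h3
  have h4 := roof_le hΨ (fun p : Fin m × Fin 2 => fun i => v p.1 (p.2, i)) (snd_state hσ).2 (by
    rw [← hv]
    ext i j
    simp only [snd, of_apply, Matrix.sum_apply, Fintype.sum_prod_type]
    rw [Finset.sum_comm]
    rfl)
  rw [Fintype.sum_prod_type] at h4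
  refine (add_le_add h3 h4).trans ?_
  rw [← Finset.sum_add_distrib]
  refine Finset.sum_le_sum fun a _ => ?_
  have h5 := side_step hγ hν hΨ (pr_psd (v a))
  rw [Fin.sum_univ_two, ← hb, ← hb, St, St, St, hΨ.trace, hΨ.trace, hT.trace, trace_two]
  unfold outDet
  linarith

theorem fst_kron {α β : Type} [Fintype β] (A : Matrix α α ℂ) {B : Matrix β β ℂ}
    (hB : B.trace = 1) : fst (A ⊗ₖ B) = A := by
  ext i j
  simp only [fst, of_apply, kroneckerMap_apply, ← Finset.mul_sum]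
  rw [show ∑ k, B k k = 1 from hB, mul_one]

theorem snd_kron {α β : Type} [Fintype α] {A : Matrix α α ℂ} (hA : A.trace = 1)
    (B : Matrix β β ℂ) : snd (A ⊗ₖ B) = B := by
  ext i j
  simp only [snd, of_apply, kroneckerMap_apply, ← Finset.sum_mul]
  rw [show ∑ k, A k k = 1 from hA, one_mul]

theorem roof_kron (hγ : γ ∈ Set.Icc (0:ℝ) 1) (hν : ν ∈ Set.Icc (0:ℝ) 1)
    {Ψ : Matrix ι ι ℂ →ₗ[ℂ] Matrix κ κ ℂ} (hΨ : IsChannel Ψ) {ρ : Matrix (Fin 2) (Fin 2) ℂ}
    {τ : Matrix ι ι ℂ} (hρ : IsState ρ) (hτ : IsState τ) :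
    roof (tensorMap (gadc γ ν) Ψ) (ρ ⊗ₖ τ) = roof (gadc γ ν) ρ + roof Ψ τ := by
  refine le_antisymm (roof_kron_le (gadc_isChannel hγ hν) hΨ hρ hτ) ?_
  have h := roof_super hγ hν hΨ (kron_isState hρ hτ)
  rwa [fst_kron _ hτ.2, snd_kron hρ.2] at h

end Vale.Agent.N358
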