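import Vale.Agent.N358.Chi

/-! P358: the statement. -/

namespace Vale.Agent.N358

open Matrix Vale.Agent.P358
open scoped Kronecker

theorem main (γ ν : ℝ) (hγ : γ ∈ Set.Icc (0 : ℝ) 1) (hν : ν ∈ Set.Icc (0 : ℝ) 1) (g : ℝ → ℝ)
    (hg : ∀ q, g q =
      h2 ((1 + √((1 - 2 * ((1 - γ) * q + γ * ν)) ^ 2 + 4 * (1 - γ) * (q * (1 - q)))) / 2)) :
    -- (1) Q1
    ((∀ n : ℕ, BddAbove (holevoSet (tensorPower (gadc γ ν) n)) ∧
        holevo (tensorPower (gadc γ ν) n) = n * holevo (gadc γ ν)) ∧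
      capacity (gadc γ ν) = holevo (gadc γ ν) ∧
      IsGreatest ((fun q => h2 ((1 - γ) * q + γ * ν) - g q) '' Set.Icc 0 1)
        (capacity (gadc γ ν))) ∧
    -- (2) prescribed average input, convex roof of the output entropy
    ((∀ ρ, IsState ρ → roof (gadc γ ν) ρ = g (ρ 1 1).re) ∧
      ∀ (ι κ : Type) [Fintype ι] [DecidableEq ι] [Fintype κ] [DecidableEq κ]
        (Ψ : Matrix ι ι ℂ →ₗ[ℂ] Matrix κ κ ℂ), IsChannel Ψ →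
        (∀ τ, IsState τ → chiAt Ψ τ = entropy (Ψ τ) - roof Ψ τ) ∧
        (∀ σ, IsState σ →
          roof (gadc γ ν) (fst σ) + roof Ψ (snd σ) ≤ roof (tensorMap (gadc γ ν) Ψ) σ ∧
          chiAt (tensorMap (gadc γ ν) Ψ) σ ≤ chiAt (gadc γ ν) (fst σ) + chiAt Ψ (snd σ)) ∧
        ∀ ρ τ, IsState ρ → IsState τ →
          roof (tensorMap (gadc γ ν) Ψ) (ρ ⊗ₖ τ) = roof (gadc γ ν) ρ + roof Ψ τ ∧
          chiAt (tensorMap (gadc γ ν) Ψ) (ρ ⊗ₖ τ) = chiAt (gadc γ ν) ρ + chiAt Ψ τ) ∧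
    -- (3) entanglement of formation on the range of a dilation
    (∀ (ε : Type) [Fintype ε] [DecidableEq ε] (V : Matrix (Fin 2 × ε) (Fin 2) ℂ),
      (∀ X, fst (V * X * Vᴴ) = gadc γ ν X) → ∀ ρ, IsState ρ →
        eof (V * ρ * Vᴴ) = g (ρ 1 1).re ∧
        (∀ n : ℕ, eof (copies n (V * ρ * Vᴴ)) = n * g (ρ 1 1).re) ∧
        ∀ (α β : Type) [Fintype α] [DecidableEq α] [Fintype β] [DecidableEq β],
          (∀ τ : Matrix (α × β) (α × β) ℂ, IsState τ →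
            eof (regroup ((V * ρ * Vᴴ) ⊗ₖ τ)) = eof (V * ρ * Vᴴ) + eof τ) ∧
          ∀ ω : Matrix ((Fin 2 × ε) × (α × β)) ((Fin 2 × ε) × (α × β)) ℂ, IsState ω →
            fst ω = V * ρ * Vᴴ → eof (fst ω) + eof (snd ω) ≤ eof (regroup ω)) ∧
    -- (4) the channel and its dilations
    IsChannel (gadc γ ν) ∧
    (∃ V : Matrix (Fin 2 × Fin 4) (Fin 2) ℂ, ∀ X, fst (V * X * Vᴴ) = gadc γ ν X) ∧
    ∀ V : Matrix (Fin 2 × Fin 2) (Fin 2) ℂ, Vᵀ 0 = Pi.single (0, 0) 1 →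
      Vᵀ 1 = Pi.single (1, 0) (√(1 - γ) : ℂ) + Pi.single (0, 1) (√γ : ℂ) →
      ∀ X, fst (V * X * Vᴴ) = gadc γ 0 X := by
  have h1 : ∀ ρ, IsState ρ → roof (gadc γ ν) ρ = g (ρ 1 1).re := fun ρ hρ => by
    rw [hg, roof_gadc hγ hν hρ]
  refine ⟨⟨fun n => ⟨⟨n * holevo (gadc γ ν), fun _ hv => mem_holevoSet_le hγ hν n hv⟩,
    holevo_tensorPower hγ hν n⟩, capacity_eq_holevo hγ hν, ?_⟩,
    ⟨h1, fun ι κ _ _ _ _ Ψ hΨ => ⟨fun τ hτ => chiAt_eq hΨ hτ,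
      fun σ hσ => ⟨roof_super hγ hν hΨ hσ, chiAt_sub hγ hν hΨ hσ⟩,
      fun ρ τ hρ hτ => ⟨roof_kron hγ hν hΨ hρ hτ, chiAt_kron hγ hν hΨ hρ hτ⟩⟩⟩,
    fun ε _ _ V hV ρ hρ => ?_, gadc_isChannel hγ hν,
    (gadc_kraus hγ hν).elim fun _ hA => dil_of_kraus hA, fun V => dil_two hγ⟩
  · rw [capacity_eq_holevo hγ hν]
    simp only [hg]
    exact holevo_formula hγ hν
  · have h2 : eof (V * ρ * Vᴴ) = g (ρ 1 1).re := by rw [eof_dil hV hγ hν hρ, h1 ρ hρ]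
    exact ⟨h2, fun n => by rw [(eof_copies hV hγ hν hρ n).2, h2], fun α β _ _ _ _ =>
      ⟨fun τ hτ => eof_kron hV hγ hν hρ hτ, fun ω hω h => eof_super hV hγ hν hω h⟩⟩

end Vale.Agent.N358
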