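import Vale.Agent.N358.Defs
import Vale.Agent.P358.H888.D

/-! P358: the convex roof through families of vectors; strong superadditivity. -/

set_option linter.unusedSectionVars false

namespace Vale.Agent.N358

open Matrix Vale.Agent.P358
open scoped ComplexOrder Kronecker

variable {ι κ ι' κ' : Type} [Fintype ι] [DecidableEq ι] [Fintype κ] [DecidableEq κ]
  [Fintype ι'] [DecidableEq ι'] [Fintype κ'] [DecidableEq κ']

/-- the unnormalised pure state of a vector -/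
def pr (v : ι → ℂ) : Matrix ι ι ℂ := vecMulVec v (star v)

theorem pr_psd (v : ι → ℂ) : (pr v).PosSemidef := posSemidef_vecMulVec_self_star v

theorem pr_trace (v : ι → ℂ) : (pr v).trace = star v ⬝ᵥ v := by
  rw [pr, trace_vecMulVec, dotProduct_comm]

theorem pr_smul (c : ℝ) (v : ι → ℂ) : pr ((c : ℂ) • v) = ((c ^ 2 : ℝ) : ℂ) • pr v := by
  ext i j
  simp [pr, vecMulVec_apply]
  ring

theorem pr_mulVec (W : Matrix ι' ι ℂ) (v : ι → ℂ) : pr (W *ᵥ v) = W * pr v * Wᴴ := by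
  rw [pr, pr, mul_vecMulVec, vecMulVec_mul, star_mulVec]

theorem pr_state {v : ι → ℂ} (h : star v ⬝ᵥ v = 1) : IsState (pr v) :=
  ⟨pr_psd v, by rw [pr_trace, h]⟩

/-- the set whose infimum is the roof -/
def rset (Φ : Matrix ι ι ℂ → Matrix κ κ ℂ) (ρ : Matrix ι ι ℂ) : Set ℝ :=
  {x | ∃ (m : ℕ) (w : Fin m → ℝ) (ψ : Fin m → ι → ℂ), (∀ a, 0 ≤ w a) ∧ ∑ a, w a = 1 ∧
    (∀ a, star (ψ a) ⬝ᵥ ψ a = 1) ∧ ∑ a, (w a : ℂ) • pr (ψ a) = ρ ∧
    x = ∑ a, w a * entropy (Φ (pr (ψ a)))}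

theorem roof_eq (Φ : Matrix ι ι ℂ → Matrix κ κ ℂ) (ρ : Matrix ι ι ℂ) :
    roof Φ ρ = sInf (rset Φ ρ) := rfl

variable {Φ : Matrix ι ι ℂ →ₗ[ℂ] Matrix κ κ ℂ} {Ψ : Matrix ι' ι' ℂ →ₗ[ℂ] Matrix κ' κ' ℂ}

theorem St_unit (hΦ : IsChannel Φ) {u : ι → ℂ} (hu : star u ⬝ᵥ u = 1) {c : ℝ} (hc : 0 ≤ c) :
    St (Φ ((c : ℂ) • pr u)) = c * entropy (Φ (pr u)) * Real.log 2 := by
  rw [map_smul, St_smul (hΦ.posSemidef (pr_psd u)) hc, St, (hΦ.isState (pr_state hu)).2, mul_assoc,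
    single_entropy_vN]
  simp

theorem rset_bdd (hΦ : IsChannel Φ) (ρ : Matrix ι ι ℂ) : BddBelow (rset Φ ρ) := by
  refine ⟨0, ?_⟩
  rintro _ ⟨m, w, ψ, hw, -, hψ, -, rfl⟩
  exact Finset.sum_nonneg fun a _ => mul_nonneg (hw a) (entropy_nonneg (hΦ.isState (pr_state (hψ a))))

theorem mem_rset_fintype {β : Type} [Fintype β] {w : β → ℝ} {ψ : β → ι → ℂ} (hw : ∀ a, 0 ≤ w a)
    (hw1 : ∑ a, w a = 1) (hψ : ∀ a, star (ψ a) ⬝ᵥ ψ a = 1) (F : Matrix ι ι ℂ → Matrix κ κ ℂ) :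
    ∑ a, w a * entropy (F (pr (ψ a))) ∈ rset F (∑ a, (w a : ℂ) • pr (ψ a)) := by
  let e := (Fintype.equivFin β).symm
  exact ⟨_, fun i => w (e i), fun i => ψ (e i), fun i => hw _, (Equiv.sum_comp e w).trans hw1,
    fun i => hψ _, Equiv.sum_comp e fun a => (w a : ℂ) • pr (ψ a),
    (Equiv.sum_comp e fun a => w a * entropy (F (pr (ψ a)))).symm⟩

theorem exists_unit [Nonempty ι] (v : ι → ℂ) :
    ∃ u : ι → ℂ, star u ⬝ᵥ u = 1 ∧ (((pr v).trace.re : ℝ) : ℂ) • pr u = pr v := by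
  have h0 : 0 ≤ (pr v).trace.re := trace_re_nonneg (pr_psd v)
  have him : (pr v).trace = ((pr v).trace.re : ℂ) :=
    Complex.ext (by simp) (by
      rw [Complex.ofReal_im]
      exact (Complex.le_def.1 (pr_psd v).trace_nonneg).2.symm)
  rcases h0.eq_or_lt with h | h
  · obtain ⟨i⟩ := ‹Nonempty ι›
    refine ⟨Pi.single i 1, by simp, ?_⟩
    have hz : (pr v).trace = 0 := by rw [him, ← h, Complex.ofReal_zero]
    rw [(pr_psd v).trace_eq_zero_iff.1 hz]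
    simp
  · have h1 : ((√(pr v).trace.re)⁻¹) ^ 2 = ((pr v).trace.re)⁻¹ := by
      rw [inv_pow, Real.sq_sqrt h0]
    refine ⟨(((√(pr v).trace.re)⁻¹ : ℝ) : ℂ) • v, ?_, ?_⟩
    · rw [← pr_trace, pr_smul, h1, trace_smul, smul_eq_mul]
      nth_rewrite 2 [him]
      rw [← Complex.ofReal_mul, inv_mul_cancel₀ h.ne', Complex.ofReal_one]
    · rw [pr_smul, h1, smul_smul, ← Complex.ofReal_mul, mul_inv_cancel₀ h.ne', Complex.ofReal_one,
        one_smul]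

theorem mem_rset (hΦ : IsChannel Φ) {β : Type} [Fintype β] (v : β → ι → ℂ) {ρ : Matrix ι ι ℂ}
    (hρ : ρ.trace = 1) (hv : ∑ b, pr (v b) = ρ) :
    (∑ b, St (Φ (pr (v b)))) / Real.log 2 ∈ rset Φ ρ := by
  have : Nonempty ι := by
    by_contra h
    rw [not_nonempty_iff] at h
    simp [Matrix.trace] at hρ
  choose u hu hvu using fun b => exists_unit (v b)
  have hw : ∀ b, 0 ≤ (pr (v b)).trace.re := fun b => trace_re_nonneg (pr_psd _)
  have h := mem_rset_fintype hw (by rw [← Complex.re_sum, ← trace_sum, hv, hρ, Complex.one_re]) hu Φ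
  simp only [hvu, hv] at h
  convert h using 1
  rw [div_eq_iff log_two_pos.ne', Finset.sum_mul]
  refine Finset.sum_congr rfl fun b _ => ?_
  rw [← St_unit hΦ (hu b) (hw b), hvu]

theorem roof_le (hΦ : IsChannel Φ) {β : Type} [Fintype β] (v : β → ι → ℂ) {ρ : Matrix ι ι ℂ}
    (hρ : ρ.trace = 1) (hv : ∑ b, pr (v b) = ρ) :
    roof Φ ρ * Real.log 2 ≤ ∑ b, St (Φ (pr (v b))) :=
  (le_div_iff₀ log_two_pos).1 (csInf_le (rset_bdd hΦ ρ) (mem_rset hΦ v hρ hv))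

theorem exists_family {ρ : Matrix ι ι ℂ} (hρ : ρ.PosSemidef) :
    ∃ v : ι → ι → ℂ, ∑ b, pr (v b) = ρ := by
  obtain ⟨B, rfl⟩ := exists_sqrt hρ
  refine ⟨fun b => star (B b), ?_⟩
  ext i j
  simp [pr, Matrix.sum_apply, vecMulVec_apply, mul_apply]

theorem rset_nonempty (hΦ : IsChannel Φ) {ρ : Matrix ι ι ℂ} (hρ : IsState ρ) :
    (rset Φ ρ).Nonempty := by
  obtain ⟨v, hv⟩ := exists_family hρ.1
  exact ⟨_, mem_rset hΦ v hρ.2 hv⟩

theorem le_roof (hΦ : IsChannel Φ) {ρ : Matrix ι ι ℂ} (hρ : IsState ρ) {c : ℝ}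
    (h : ∀ (m : ℕ) (v : Fin m → ι → ℂ), ∑ b, pr (v b) = ρ → c ≤ ∑ b, St (Φ (pr (v b)))) :
    c ≤ roof Φ ρ * Real.log 2 := by
  rw [← div_le_iff₀ log_two_pos]
  refine le_csInf (rset_nonempty hΦ hρ) ?_
  rintro _ ⟨m, w, ψ, hw, -, hψ, h1, rfl⟩
  have h2 : ∀ a, pr (((√(w a) : ℝ) : ℂ) • ψ a) = (w a : ℂ) • pr (ψ a) := fun a => by
    rw [pr_smul, Real.sq_sqrt (hw a)]
  have h3 := h m (fun a => ((√(w a) : ℝ) : ℂ) • ψ a) (by simp only [h2]; exact h1)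
  simp only [h2] at h3
  rw [div_le_iff₀ log_two_pos, Finset.sum_mul]
  refine h3.trans (le_of_eq (Finset.sum_congr rfl fun a _ => St_unit hΦ (hψ a) (hw a)))

/-- product decompositions -/
theorem roof_kron_le (hΦ : IsChannel Φ) (hΨ : IsChannel Ψ) {ρ : Matrix ι ι ℂ}
    {τ : Matrix ι' ι' ℂ} (hρ : IsState ρ) (hτ : IsState τ) :
    roof (tensorMap Φ Ψ) (ρ ⊗ₖ τ) ≤ roof Φ ρ + roof Ψ τ := by
  have key : ∀ x ∈ rset Φ ρ, ∀ y ∈ rset Ψ τ, roof (tensorMap Φ Ψ) (ρ ⊗ₖ τ) ≤ x + y := by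
    rintro _ ⟨m, w, ψ, hw, hw1, hψ, rfl, rfl⟩ _ ⟨m', w', ψ', hw', hw1', hψ', rfl, rfl⟩
    have hpr : ∀ a b, pr (fun x : ι × ι' => ψ a x.1 * ψ' b x.2) = pr (ψ a) ⊗ₖ pr (ψ' b) := by
      intro a b
      ext x y
      simp [pr, vecMulVec_apply, kroneckerMap_apply]
      ring
    have h := mem_rset_fintype (β := Fin m × Fin m') (w := fun p => w p.1 * w' p.2)
      (ψ := fun p x => ψ p.1 x.1 * ψ' p.2 x.2) (fun p => mul_nonneg (hw _) (hw' _))
      (by simp only [Fintype.sum_prod_type, ← Finset.mul_sum, hw1', mul_one, hw1])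
      (fun p => by rw [← pr_trace, hpr, trace_kronecker, pr_trace, pr_trace, hψ, hψ', mul_one])
      (tensorMap Φ Ψ)
    have h1 : ∑ p : Fin m × Fin m', ((w p.1 * w' p.2 : ℝ) : ℂ) •
        pr (fun x : ι × ι' => ψ p.1 x.1 * ψ' p.2 x.2) =
        (∑ a, (w a : ℂ) • pr (ψ a)) ⊗ₖ (∑ b, (w' b : ℂ) • pr (ψ' b)) := by
      ext y y'
      simp only [hpr, Matrix.sum_apply, Matrix.smul_apply, kroneckerMap_apply, smul_eq_mul,
        Fintype.sum_prod_type]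
      rw [Finset.sum_mul_sum]
      refine Finset.sum_congr rfl fun a _ => Finset.sum_congr rfl fun b _ => ?_
      push_cast
      ring
    rw [h1] at h
    refine (csInf_le (rset_bdd (hΦ.tensorMap hΨ) _) h).trans (le_of_eq ?_)
    have hent : ∀ a b, w a * w' b * entropy (tensorMap Φ Ψ (pr (ψ a) ⊗ₖ pr (ψ' b))) =
        w' b * (w a * entropy (Φ (pr (ψ a)))) + w a * (w' b * entropy (Ψ (pr (ψ' b)))) := by
      intro a b
      rw [tensorMap_kron, entropy_kron (hΦ.isState (pr_state (hψ a)))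
        (hΨ.isState (pr_state (hψ' b)))]
      ring
    simp only [hpr, Fintype.sum_prod_type, hent, Finset.sum_add_distrib, ← Finset.mul_sum,
      ← Finset.sum_mul, hw1, hw1', one_mul]
  have h1 : ∀ x ∈ rset Φ ρ, roof (tensorMap Φ Ψ) (ρ ⊗ₖ τ) - x ≤ roof Ψ τ := fun x hx =>
    le_csInf (rset_nonempty hΨ hτ) fun y hy => by linarith [key x hx y hy]
  have h2 : roof (tensorMap Φ Ψ) (ρ ⊗ₖ τ) - roof Ψ τ ≤ roof Φ ρ :=
    le_csInf (rset_nonempty hΦ hρ) fun x hx => by linarith [h1 x hx]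
  linarith

/-- the roof is invariant under isometric embeddings of the input -/
theorem roof_isometry {Φ' : Matrix ι' ι' ℂ →ₗ[ℂ] Matrix κ κ ℂ} (hΦ : IsChannel Φ)
    (hΦ' : IsChannel Φ') {W : Matrix ι' ι ℂ} (hW : Wᴴ * W = 1)
    (h : ∀ X, Φ' (W * X * Wᴴ) = Φ X) {σ : Matrix ι ι ℂ} (hσ : IsState σ) :
    roof Φ' (W * σ * Wᴴ) = roof Φ σ := by
  have hσ' : IsState (W * σ * Wᴴ) := ⟨hσ.1.mul_mul_conjTranspose_same W, by
    rw [trace_mul_comm, ← Matrix.mul_assoc, hW, Matrix.one_mul, hσ.2]⟩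
  refine mul_right_cancel₀ log_two_pos.ne' (le_antisymm (le_roof hΦ hσ fun m v hv => ?_)
    (le_roof hΦ' hσ' fun m u hu => ?_))
  · refine (roof_le hΦ' (fun a => W *ᵥ v a) hσ'.2 ?_).trans (le_of_eq ?_)
    · simp only [pr_mulVec, ← Matrix.sum_mul, ← Matrix.mul_sum, hv]
    · simp only [pr_mulVec, h]
  · have hQ : (1 - W * Wᴴ) * W = 0 := by
      rw [Matrix.sub_mul, Matrix.mul_assoc, hW, Matrix.one_mul, Matrix.mul_one, sub_self]
    have h1 : ∑ a, pr ((1 - W * Wᴴ) *ᵥ u a) = 0 := by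
      simp only [pr_mulVec, ← Matrix.sum_mul, ← Matrix.mul_sum, hu, ← Matrix.mul_assoc, hQ,
        Matrix.zero_mul]
    have h2 : ∀ a, W *ᵥ (Wᴴ *ᵥ u a) = u a := by
      intro a
      have h3 := congrArg Matrix.trace h1
      rw [trace_sum, trace_zero,
        Finset.sum_eq_zero_iff_of_nonneg fun a _ => (pr_psd _).trace_nonneg] at h3
      have h4 := h3 a (Finset.mem_univ a)
      rw [pr_trace, dotProduct_star_self_eq_zero, sub_mulVec, one_mulVec, sub_eq_zero] at h4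
      rw [mulVec_mulVec, ← h4]
    refine (roof_le hΦ (fun a => Wᴴ *ᵥ u a) hσ.2 ?_).trans (le_of_eq ?_)
    · simp only [pr_mulVec, ← Matrix.sum_mul, ← Matrix.mul_sum, hu, conjTranspose_conjTranspose]
      rw [← Matrix.mul_assoc, ← Matrix.mul_assoc, hW, Matrix.one_mul, Matrix.mul_assoc, hW,
        Matrix.mul_one]
    · simp only [← h, ← pr_mulVec, h2]

end Vale.Agent.N358
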